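import Vale.Agent.P137.Centred.Passage.Tools
import Vale.Agent.P137.Centred.Defs

/-!
P137, centred passage: regular approximations converging with their gradients in `L¹`.
-/

open MeasureTheory Metric Set Filter
open scoped ENNReal NNReal Topology ContDiff

noncomputable section

namespace Vale.Agent.P137.Centred

variable {d : ℕ}

lemma enorm_single_one (i : Fin d) : ‖(EuclideanSpace.single i (1:ℝ) : X d)‖ₑ = 1 := by
  rw [← ofReal_norm, PiLp.norm_single, norm_one, ENNReal.ofReal_one]

lemma enorm_apply_le (T : X d →L[ℝ] ℝ) (i : Fin d) :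
    ‖T (EuclideanSpace.single i 1)‖ₑ ≤ ‖T‖ₑ := by
  simpa [enorm_single_one] using T.le_opENorm (EuclideanSpace.single i 1)

lemma tendsto_integral_mul_of_L1 {u : X d → ℝ} {us : ℕ → X d → ℝ} (hu : Integrable u)
    (hus : ∀ k, Integrable (us k))
    (h : Tendsto (fun k => ∫⁻ x, ‖us k x - u x‖ₑ) atTop (𝓝 0))
    {ψ : X d → ℝ} (hψ : Continuous ψ) (hψc : HasCompactSupport ψ) :
    Tendsto (fun k => ∫ x, us k x * ψ x) atTop (𝓝 (∫ x, u x * ψ x)) := by
  obtain ⟨B, hB⟩ := hψc.exists_bound_of_continuous hψ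
  have hi : ∀ {a : X d → ℝ}, Integrable a → Integrable fun x => a x * ψ x := fun ha =>
    ha.mul_bdd hψ.aestronglyMeasurable (Eventually.of_forall hB)
  refine tendsto_integral_of_L1 _ (hi hu).1 (Eventually.of_forall fun k => hi (hus k)) ?_
  refine tendsto_of_tendsto_of_tendsto_of_le_of_le tendsto_const_nhds
    (by simpa using ENNReal.Tendsto.mul_const h (Or.inr (ENNReal.ofReal_ne_top (r := B))))
    (fun k => zero_le) fun k => ?_
  change _ ≤ (∫⁻ x, ‖us k x - u x‖ₑ) * ENNReal.ofReal B
  rw [← lintegral_mul_const' _ _ ENNReal.ofReal_ne_top]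
  refine lintegral_mono fun x => ?_
  rw [← sub_mul, enorm_mul]
  refine mul_le_mul_right ?_ _
  rw [← ofReal_norm]
  exact ENNReal.ofReal_le_ofReal (hB x)

/-- The absolute value of a function with an integrable weak gradient has one too. -/
theorem exists_weakGrad_abs (D : Data d) :
    ∃ H : Fin d → X d → ℝ, (∀ i, Integrable (H i)) ∧ (∀ i, Measurable (H i)) ∧
      IsWeakGrad D.h H ∧ ∑ i, ∫ x, |H i x| ≤ 2 * d * (d * D.G0) := by
  have hcd : ∀ m, ContDiff ℝ 1 (D.reg m) := fun m => (D.coreFun_reg m).1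
  refine exists_weakGrad_of_limit
    (fun i m x => fderiv ℝ (D.reg m) x (EuclideanSpace.single i 1))
    (fun i m => (((hcd m).continuous_fderiv one_ne_zero).clm_apply continuous_const).measurable)
    (mul_nonneg (Nat.cast_nonneg d) D.G0_nonneg) ?_ ?_ ?_
  · intro i ε hε
    refine Eventually.of_forall fun m => ?_
    calc ∫⁻ x, ‖fderiv ℝ (D.reg m) x (EuclideanSpace.single i 1)‖ₑ
        ≤ ∫⁻ x, ‖fderiv ℝ (D.reg m) x‖ₑ := lintegral_mono fun x => enorm_apply_le _ i
      _ ≤ d * ∫⁻ x, D.W x := D.lintegral_fderiv_reg m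
      _ ≤ ENNReal.ofReal (d * D.G0 + ε) := by
          rw [D.lintegral_W, ← ENNReal.ofReal_natCast, ← ENNReal.ofReal_mul (Nat.cast_nonneg d)]
          refine ENNReal.ofReal_le_ofReal ?_
          simp only [Data.G0]
          linarith
  · intro i K hK hK0 ε hε
    have hfin : ∀ r, volume (thickening r K) ≠ ⊤ := fun r =>
      ((hK.isBounded.thickening).measure_lt_top).ne
    have hv0 : Tendsto (fun r => volume (thickening r K)) (𝓝[>] 0) (𝓝 0) := by
      simpa [hK0] using tendsto_measure_thickening_of_isClosed ⟨1, one_pos, hfin 1⟩ hK.isClosed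
    have hW0 := ENNReal.Tendsto.const_mul (a := (d:ℝ≥0∞))
      (tendsto_setLIntegral_zero (f := D.W) D.lintegral_W_ne_top
        (s := fun r : ℝ => thickening r K) hv0) (Or.inr (ENNReal.natCast_ne_top d))
    rw [mul_zero] at hW0
    obtain ⟨η, hηW, hη⟩ := ((hW0.eventually (ge_mem_nhds (ENNReal.ofReal_pos.2 hε))).and
      (self_mem_nhdsWithin : ∀ᶠ r in 𝓝[>] (0:ℝ), 0 < r)).exists
    refine ⟨thickening (η / 2) K, isOpen_thickening, self_subset_thickening (half_pos hη) K, ?_⟩
    filter_upwards [(tendsto_order.1 tendsto_rad).2 (η / 2) (half_pos hη)] with m hm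
    refine le_trans (lintegral_mono fun x => enorm_apply_le _ i) ?_
    refine le_trans (D.setLIntegral_fderiv_reg isOpen_thickening.measurableSet m hm) ?_
    refine le_trans (mul_le_mul_right (lintegral_mono_set ?_) _) hηW
    exact (thickening_thickening_subset _ _ _).trans (thickening_mono (by linarith) _)
  · intro i φ hφ hφc
    have hφ1 : ContDiff ℝ 1 φ := hφ.of_le (by norm_num)
    have hdc : Continuous fun x => fderiv ℝ φ x (EuclideanSpace.single i 1) :=
      (hφ1.continuous_fderiv one_ne_zero).clm_apply continuous_const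
    have hdcs : HasCompactSupport fun x => fderiv ℝ φ x (EuclideanSpace.single i 1) :=
      hφc.fderiv_apply ℝ _
    refine (tendsto_integral_mul_of_L1 D.integrable_h (fun k => (D.coreFun_reg k).2.1)
      D.tendsto_reg hdc hdcs).congr fun m => ?_
    rw [integral_mul_fderiv_eq_neg_fderiv_mul_of_integrable ?_ ?_ ?_
      (fun x _ => (hcd m).differentiable one_ne_zero x)
      (fun x _ => hφ1.differentiable one_ne_zero x)]
    · simp only [mul_comm (φ _)]
    · exact (Continuous.mul (((hcd m).continuous_fderiv one_ne_zero).clm_apply continuous_const)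
        hφ.continuous).integrable_of_hasCompactSupport hφc.mul_left
    · exact ((hcd m).continuous.mul hdc).integrable_of_hasCompactSupport hdcs.mul_left
    · exact ((hcd m).continuous.mul hφ.continuous).integrable_of_hasCompactSupport hφc.mul_left

/-- The cutoff at scale `1 / rad k`. -/
def chiBump : ContDiffBump (0 : X d) := ⟨1, 2, one_pos, one_lt_two⟩

/-- The cutoffs. -/
def chi (k : ℕ) (x : X d) : ℝ := (chiBump : ContDiffBump (0 : X d)) (rad k • x)

lemma contDiff_chi (k : ℕ) : ContDiff ℝ 1 (chi k : X d → ℝ) :=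
  (chiBump.contDiff).comp (contDiff_const_smul (rad k))

lemma chi_mem (k : ℕ) (x : X d) : 0 ≤ chi k x ∧ chi k x ≤ 1 :=
  ⟨chiBump.nonneg, chiBump.le_one⟩

lemma hasCompactSupport_chi (k : ℕ) : HasCompactSupport (chi k : X d → ℝ) :=
  chiBump.hasCompactSupport.comp_homeomorph
    (Homeomorph.smulOfNeZero (rad k) (rad_pos k).ne' : X d ≃ₜ X d)

lemma exists_fderiv_chi_le : ∃ B : ℝ, 0 ≤ B ∧ ∀ (k : ℕ) (x : X d),
    ‖fderiv ℝ (chi k) x‖ ≤ rad k * B := by
  obtain ⟨B, hB⟩ := (chiBump (d := d)).hasCompactSupport.fderiv ℝ |>.exists_bound_of_continuous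
    (((chiBump (d := d)).contDiff (n := 1)).continuous_fderiv one_ne_zero)
  refine ⟨B, le_trans (norm_nonneg _) (hB 0), fun k x => ?_⟩
  unfold chi
  rw [fderiv_comp_smul, norm_smul, Real.norm_eq_abs, abs_of_pos (rad_pos k)]
  exact mul_le_mul_of_nonneg_left (hB _) (rad_pos k).le

lemma tendsto_chi_L1 {u : X d → ℝ} (hu : Integrable u) (hum : Measurable u) :
    Tendsto (fun k => ∫⁻ x, ENNReal.ofReal (1 - chi k x) * ‖u x‖ₑ) atTop (𝓝 0) := by
  rw [← lintegral_zero (μ := (volume : Measure (X d)))]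
  refine tendsto_lintegral_of_dominated_convergence (fun x => ‖u x‖ₑ) (fun k => ?_) (fun k => ?_)
    hu.2.ne ?_
  · exact ((measurable_const.sub (contDiff_chi k).continuous.measurable).ennreal_ofReal).mul
      hum.enorm
  · refine Eventually.of_forall fun x => ?_
    exact mul_le_of_le_one_left zero_le (ENNReal.ofReal_le_one.2 (by linarith [(chi_mem k x).1]))
  · refine Eventually.of_forall fun x => ?_
    have h : Tendsto (fun k => chi k x) atTop (𝓝 1) := by
      have h1 : Tendsto (fun k => rad k • x) atTop (𝓝 (0 : X d)) := by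
        simpa using tendsto_rad.smul_const x
      have h2 := ((chiBump (d := d)).continuous.tendsto (0 : X d)).comp h1
      rwa [(chiBump (d := d)).one_of_mem_closedBall (by simp [chiBump])] at h2
    have h3 : Tendsto (fun k => ENNReal.ofReal (1 - chi k x)) atTop (𝓝 0) := by
      simpa using ENNReal.tendsto_ofReal ((tendsto_const_nhds (x := (1:ℝ))).sub h)
    simpa using ENNReal.Tendsto.mul_const h3 (Or.inr enorm_ne_top)

lemma vgrad_apply (f : X d → ℝ) (y : X d) (i : Fin d) :
    vgrad f y i = fderiv ℝ f y (EuclideanSpace.single i 1) := by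
  rw [vgrad, ← toDual_gradient (f := f) (x := y), InnerProductSpace.toDual_apply_apply,
    EuclideanSpace.inner_single_right]
  simp

lemma enorm_vgrad (f : X d → ℝ) (y : X d) : ‖vgrad f y‖ₑ = ‖fderiv ℝ f y‖ₑ := by
  rw [vgrad, gradient, ← ofReal_norm, LinearIsometryEquiv.norm_map, ofReal_norm]

lemma enorm_vgrad_sub_le (f : X d → ℝ) (y z : X d) :
    ‖vgrad f y - vgrad f z‖ₑ ≤ ∑ i, ‖fderiv ℝ f y (EuclideanSpace.single i 1) -
      fderiv ℝ f z (EuclideanSpace.single i 1)‖ₑ := by
  rw [vgrad, vgrad, gradient, gradient, ← map_sub, ← ofReal_norm, LinearIsometryEquiv.norm_map,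
    ofReal_norm]
  exact enorm_le_sum _

variable (D : Data d)

/-- The regular approximations. -/
def approx (k : ℕ) (x : X d) : ℝ := chi k x * D.reg k x

lemma regFun_approx (k : ℕ) : RegFun (approx D k) :=
  ⟨(contDiff_chi k).mul (D.coreFun_reg k).1, (hasCompactSupport_chi k).mul_right,
    fun x => mul_nonneg (chi_mem k x).1 ((D.coreFun_reg k).2.2.1 x)⟩

lemma enorm_approx_le (k : ℕ) (z : X d) :
    ‖approx D k z‖ₑ ≤ ∫⁻ y, ENNReal.ofReal (psi k y) * ‖D.h (z - y)‖ₑ := by
  refine le_trans ?_ (enorm_moll_le k D.h z)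
  rw [approx, enorm_mul]
  refine mul_le_of_le_one_left zero_le ?_
  rw [Real.enorm_eq_ofReal (chi_mem k z).1]
  exact ENNReal.ofReal_le_one.2 (chi_mem k z).2

lemma enorm_mul_sub_le {c a b : ℝ} (h0 : 0 ≤ c) (h1 : c ≤ 1) :
    ‖c * a - b‖ₑ ≤ ‖a - b‖ₑ + ENNReal.ofReal (1 - c) * ‖b‖ₑ := by
  have h : c * a - b = c * (a - b) + -((1 - c) * b) := by ring
  rw [h]
  refine le_trans (enorm_add_le _ _) (add_le_add ?_ ?_)
  · rw [enorm_mul, Real.enorm_eq_ofReal h0]
    exact mul_le_of_le_one_left zero_le (ENNReal.ofReal_le_one.2 h1)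
  · rw [enorm_neg, enorm_mul, Real.enorm_eq_ofReal (by linarith)]

lemma tendsto_approx : Tendsto (fun k => ∫⁻ x, ‖approx D k x - D.h x‖ₑ) atTop (𝓝 0) := by
  have hm := D.measurable_h
  refine tendsto_of_tendsto_of_tendsto_of_le_of_le tendsto_const_nhds
    (by simpa using D.tendsto_reg.add (tendsto_chi_L1 D.integrable_h hm))
    (fun k => zero_le) fun k => ?_
  have := (D.coreFun_reg k).1.continuous
  rw [← lintegral_add_left (by fun_prop)]
  exact lintegral_mono fun x => enorm_mul_sub_le (chi_mem k x).1 (chi_mem k x).2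

lemma tendsto_approx_grad {H : Fin d → X d → ℝ} (hHi : ∀ i, Integrable (H i))
    (hHm : ∀ i, Measurable (H i)) (hH : IsWeakGrad D.h H) (i : Fin d) :
    Tendsto (fun k => ∫⁻ x,
      ‖fderiv ℝ (approx D k) x (EuclideanSpace.single i 1) - H i x‖ₑ) atTop (𝓝 0) := by
  obtain ⟨B, hB0, hB⟩ := exists_fderiv_chi_le (d := d)
  have hsmall : Tendsto (fun k => ENNReal.ofReal (rad k * B) * ∫⁻ x, ‖D.h x‖ₑ) atTop (𝓝 0) := by
    have h1 : Tendsto (fun k => ENNReal.ofReal (rad k * B)) atTop (𝓝 0) := by
      simpa using ENNReal.tendsto_ofReal (tendsto_rad.mul_const B)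
    simpa using ENNReal.Tendsto.mul_const h1 (Or.inr D.integrable_h.2.ne)
  refine tendsto_of_tendsto_of_tendsto_of_le_of_le tendsto_const_nhds
    (by simpa using hsmall.add ((tendsto_moll_L1 (hHi i) (hHm i)).add
      (tendsto_chi_L1 (hHi i) (hHm i))))
    (fun k => zero_le) fun k => ?_
  have hc := (contDiff_moll (n := 1) (hHi i).locallyIntegrable k).continuous
  have hr := (D.coreFun_reg k).1
  calc ∫⁻ x, ‖fderiv ℝ (approx D k) x (EuclideanSpace.single i 1) - H i x‖ₑ
      ≤ ∫⁻ x, ENNReal.ofReal (rad k * B) * ‖D.reg k x‖ₑ + (‖moll k (H i) x - H i x‖ₑ +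
          ENNReal.ofReal (1 - chi k x) * ‖H i x‖ₑ) := by
        refine lintegral_mono fun x => ?_
        unfold approx
        rw [fderiv_fun_mul ((contDiff_chi k).differentiable one_ne_zero x)
          (hr.differentiable one_ne_zero x)]
        simp only [add_apply, smul_apply, smul_eq_mul]
        rw [show fderiv ℝ (D.reg k) x (EuclideanSpace.single i 1) = moll k (H i) x from
          fderiv_moll D.integrable_h.locallyIntegrable i (fun φ h1 h2 => hH i φ h1 h2) k x]
        rw [add_comm (chi k x * _), add_sub_assoc]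
        refine le_trans (enorm_add_le _ _)
          (add_le_add ?_ (enorm_mul_sub_le (chi_mem k x).1 (chi_mem k x).2))
        rw [enorm_mul, mul_comm ‖D.reg k x‖ₑ]
        refine mul_le_mul_left ?_ _
        rw [← ofReal_norm]
        exact ENNReal.ofReal_le_ofReal (le_trans (le_trans
          ((fderiv ℝ (chi k) x).le_opNorm _) (by simp)) (hB k x))
    _ = ENNReal.ofReal (rad k * B) * (∫⁻ x, ‖D.reg k x‖ₑ) +
        ((∫⁻ x, ‖moll k (H i) x - H i x‖ₑ) + ∫⁻ x, ENNReal.ofReal (1 - chi k x) * ‖H i x‖ₑ) := by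
        have := hHm i
        rw [lintegral_add_left (hr.continuous.measurable.enorm.const_mul _),
          lintegral_const_mul _ hr.continuous.measurable.enorm,
          lintegral_add_left (by fun_prop)]
    _ ≤ _ := by
        refine add_le_add (mul_le_mul_right ?_ _) le_rfl
        exact le_trans (lintegral_mono fun x => enorm_moll_le k D.h x)
          (lintegral_moll_le D.measurable_h.enorm k)

end Vale.Agent.P137.Centred
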