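import Vale.Agent.P137.Centred.Defs
import Vale.Agent.P137.Passage

/-!
P137, centred passage: the centred maximal function, and its values at regular inputs.
-/

open MeasureTheory Metric Set Filter
open scoped ENNReal NNReal Topology ContDiff

noncomputable section

namespace Vale.Agent.P137.Centred

variable {d : ℕ}

lemma cmaxFun_le_maxFun (f : X d → ℝ) (x : X d) : cmaxFun f x ≤ maxFun f x :=
  iSup₂_le fun r hr => le_iSup_of_le x (le_iSup_of_le r (le_iSup_of_le (mem_ball_self hr) le_rfl))

lemma cmaxFun_congr_abs {f g : X d → ℝ} (h : ∀ᵐ y, |f y| = |g y|) : cmaxFun f = cmaxFun g := by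
  funext x
  refine iSup_congr fun r => iSup_congr fun _ => ?_
  congr 1
  refine lintegral_congr_ae (ae_restrict_of_ae ?_)
  filter_upwards [h] with y hy
  rw [← ofReal_norm, ← ofReal_norm, Real.norm_eq_abs, Real.norm_eq_abs, hy]

lemma measurable_cmaxFun (f : X d → ℝ) : Measurable (cmaxFun f) := by
  refine LowerSemicontinuous.measurable fun x t ht => ?_
  simp only [cmaxFun, lt_iSup_iff] at ht
  obtain ⟨r, hr, hlt⟩ := ht
  set I := ∫⁻ y in ball x r, ‖f y‖ₑ with hI
  have hvol : ∀ s : ℝ, 0 < s →
      volume (ball x s) = ENNReal.ofReal (s ^ d) * volume (ball (0 : X d) 1) := fun s hs => by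
    rw [Measure.addHaar_ball_of_pos volume x hs, finrank_euclideanSpace_fin]
  have hcont : Tendsto (fun s : ℝ => (volume (ball x s))⁻¹ * I) (𝓝[>] r)
      (𝓝 ((volume (ball x r))⁻¹ * I)) := by
    have h1 : Tendsto (fun s : ℝ => ENNReal.ofReal (s ^ d) * volume (ball (0 : X d) 1)) (𝓝[>] r)
        (𝓝 (ENNReal.ofReal (r ^ d) * volume (ball (0 : X d) 1))) := by
      refine ENNReal.Tendsto.mul_const ?_ (Or.inr measure_ball_lt_top.ne)
      exact (ENNReal.continuous_ofReal.comp (continuous_pow d)).continuousWithinAt.tendsto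
    have h2 : Tendsto (fun s : ℝ => volume (ball x s)) (𝓝[>] r) (𝓝 (volume (ball x r))) := by
      rw [hvol r hr]
      exact h1.congr' (eventually_nhdsWithin_of_forall fun s (hs : r < s) =>
        (hvol s (hr.trans hs)).symm)
    refine ENNReal.Tendsto.mul_const ((continuous_inv.tendsto _).comp h2) (Or.inl ?_)
    simpa using measure_ball_lt_top.ne
  obtain ⟨s, hs, hrs⟩ :=
    (((tendsto_order.1 hcont).1 t hlt).and (self_mem_nhdsWithin : ∀ᶠ s in 𝓝[>] r, r < s)).exists
  filter_upwards [ball_mem_nhds x (sub_pos.2 hrs)] with y hy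
  refine lt_of_lt_of_le hs ?_
  refine le_iSup_of_le s (le_iSup_of_le (hr.trans hrs) ?_)
  rw [Measure.addHaar_ball_center volume x, ← Measure.addHaar_ball_center volume y]
  refine mul_le_mul_right (lintegral_mono_set fun z hz => ?_) _
  rw [mem_ball] at hz hy ⊢
  linarith [dist_triangle_right z y x]

/-- Averages are subadditive along mollification. -/
lemma cmaxFun_le_moll {h g : X d → ℝ} (hm : Measurable h) (k : ℕ)
    (hg : ∀ z, ‖g z‖ₑ ≤ ∫⁻ y, ENNReal.ofReal (psi k y) * ‖h (z - y)‖ₑ) (x : X d) :
    cmaxFun g x ≤ ∫⁻ y, ENNReal.ofReal (psi k y) * cmaxFun h (x - y) := by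
  refine iSup₂_le fun r hr => ?_
  have hz : volume (ball x r) ≠ 0 := (measure_ball_pos volume x hr).ne'
  calc (volume (ball x r))⁻¹ * ∫⁻ z in ball x r, ‖g z‖ₑ
      ≤ (volume (ball x r))⁻¹ *
        ∫⁻ z in ball x r, ∫⁻ y, ENNReal.ofReal (psi k y) * ‖h (z - y)‖ₑ :=
        mul_le_mul_right (lintegral_mono fun z => hg z) _
    _ = ∫⁻ y, ENNReal.ofReal (psi k y) *
          ((volume (ball x r))⁻¹ * ∫⁻ z in ball x r, ‖h (z - y)‖ₑ) := by
        rw [lintegral_lintegral_swap, ← lintegral_const_mul' _ _ (ENNReal.inv_ne_top.2 hz)]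
        · refine lintegral_congr fun y => ?_
          rw [lintegral_const_mul _ (by fun_prop), mul_left_comm]
        · exact Measurable.aemeasurable
            (((psi_continuous k).measurable.ennreal_ofReal.comp measurable_snd).mul
              ((hm.comp (measurable_fst.sub measurable_snd)).enorm))
    _ ≤ ∫⁻ y, ENNReal.ofReal (psi k y) * cmaxFun h (x - y) := by
        refine lintegral_mono fun y => mul_le_mul_right ?_ _
        refine le_iSup_of_le r (le_iSup_of_le hr (le_of_eq ?_))
        rw [Measure.addHaar_ball_center volume x, ← Measure.addHaar_ball_center volume (x - y)]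
        congr 1
        rw [← setLIntegral_ball_shift (fun z => ‖h (z - y)‖ₑ) x r,
          ← setLIntegral_ball_shift (fun z => ‖h z‖ₑ) (x - y) r]
        refine lintegral_congr fun z => ?_
        rw [add_sub_assoc]

namespace RegFun

variable {g : X d → ℝ}

lemma integrable (hg : RegFun g) : Integrable g :=
  hg.1.continuous.integrable_of_hasCompactSupport hg.2.1

lemma exists_lipschitz (hg : RegFun g) : ∃ K : ℝ≥0, LipschitzWith K g :=
  hg.1.lipschitzWith_of_hasCompactSupport hg.2.1 one_ne_zero

lemma cavg_nonneg (hg : RegFun g) (p : X d × ℝ) : 0 ≤ cavg g p :=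
  mul_nonneg (inv_nonneg.2 ENNReal.toReal_nonneg) (integral_nonneg fun _ => hg.2.2 _)

lemma bddAbove (hg : RegFun g) (x : X d) : BddAbove ((fun r => cavg g (x, r)) '' Ici 0) := by
  obtain ⟨M, hM⟩ := hg.2.1.exists_bound_of_continuous hg.1.continuous
  refine ⟨M, ?_⟩
  rintro _ ⟨r, -, rfl⟩
  have hv := vol_unit_pos (d := d)
  refine le_trans (mul_le_mul_of_nonneg_left
    (setIntegral_mono_on (g := fun _ : X d => M) ?_ ?_ measurableSet_ball fun u _ => ?_)
      (inv_nonneg.2 hv.le)) (le_of_eq ?_)
  · exact ((hg.1.continuous.comp (by fun_prop)).continuousOn.integrableOn_compact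
      (isCompact_closedBall 0 1)).mono_set ball_subset_closedBall
  · exact integrableOn_const measure_ball_lt_top.ne
  · exact le_trans (le_abs_self _) (by simpa using hM (x + r • u))
  · simp only [setIntegral_const, smul_eq_mul, measureReal_def]
    field_simp

lemma le_cMax (hg : RegFun g) (x : X d) {r : ℝ} (hr : 0 ≤ r) : cavg g (x, r) ≤ cMax g x :=
  le_csSup (hg.bddAbove x) (mem_image_of_mem _ hr)

lemma cMax_nonneg (hg : RegFun g) (x : X d) : 0 ≤ cMax g x :=
  le_trans (hg.cavg_nonneg _) (hg.le_cMax x le_rfl)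

/-- At regular inputs the two definitions of the maximal function agree. -/
lemma ofReal_cMax (hg : RegFun g) (x : X d) : ENNReal.ofReal (cMax g x) = cmaxFun g x := by
  have hval : ∀ r : ℝ, 0 < r →
      ENNReal.ofReal (cavg g (x, r)) = (volume (ball x r))⁻¹ * ∫⁻ y in ball x r, ‖g y‖ₑ :=
    fun r hr => by
      rw [cavg_eq_avg g x hr]
      exact ofReal_avg hg.integrable (fun y => (abs_of_nonneg (hg.2.2 y)).symm) x hr
  refine le_antisymm ?_ (iSup₂_le fun r hr => ?_)
  · have hall : ∀ r : ℝ, 0 ≤ r → ENNReal.ofReal (cavg g (x, r)) ≤ cmaxFun g x := by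
      intro r hr
      rcases hr.eq_or_lt with rfl | hr
      · have hc : Continuous fun s : ℝ => ENNReal.ofReal (cavg g (x, s)) :=
          ENNReal.continuous_ofReal.comp ((continuous_cavg hg.1).comp (by fun_prop))
        refine le_of_tendsto ((hc.tendsto 0).mono_left (nhdsWithin_le_nhds (s := Ioi 0))) ?_
        filter_upwards [self_mem_nhdsWithin] with s (hs : 0 < s)
        rw [hval s hs]
        exact le_iSup_of_le s (le_iSup_of_le hs le_rfl)
      · rw [hval r hr]
        exact le_iSup_of_le r (le_iSup_of_le hr le_rfl)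
    refine le_of_forall_lt fun t ht => ?_
    have ht' : t ≠ ⊤ := ne_top_of_lt ht
    rw [ENNReal.lt_ofReal_iff_toReal_lt ht'] at ht
    obtain ⟨_, ⟨r, hr, rfl⟩, hlt⟩ :=
      exists_lt_of_lt_csSup (Set.nonempty_Ici.image fun r => cavg g (x, r)) ht
    exact lt_of_lt_of_le ((ENNReal.lt_ofReal_iff_toReal_lt ht').2 hlt) (hall r hr)
  · rw [← hval r hr]
    exact ENNReal.ofReal_le_ofReal (hg.le_cMax x hr.le)

lemma lipschitz_cMax (hg : RegFun g) : ∃ K : ℝ≥0, LipschitzWith K (cMax g) := by
  obtain ⟨K, hK⟩ := hg.exists_lipschitz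
  refine ⟨K, LipschitzWith.of_le_add_mul K fun x y => ?_⟩
  refine csSup_le (Set.nonempty_Ici.image fun r => cavg g (x, r)) ?_
  rintro _ ⟨r, hr, rfl⟩
  refine le_trans ?_ (add_le_add (hg.le_cMax y hr) le_rfl)
  have hv := vol_unit_pos (d := d)
  have hint : ∀ z : X d, IntegrableOn (fun u => g (z + r • u)) (ball 0 1) := fun z =>
    ((hg.1.continuous.comp (by fun_prop)).continuousOn.integrableOn_compact
      (isCompact_closedBall 0 1)).mono_set ball_subset_closedBall
  calc cavg g (x, r) ≤ (volume (ball (0 : X d) 1)).toReal⁻¹ *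
        ∫ u in ball (0 : X d) 1, (g (y + r • u) + K * dist x y) := by
        refine mul_le_mul_of_nonneg_left (setIntegral_mono_on (hint x)
          ((hint y).add (integrableOn_const measure_ball_lt_top.ne)) measurableSet_ball
            fun u _ => ?_) (inv_nonneg.2 hv.le)
        have := (le_abs_self _).trans (Real.dist_eq _ _ ▸ hK.dist_le_mul (x + r • u) (y + r • u))
        rw [dist_add_right] at this
        linarith
    _ = cavg g (y, r) + K * dist x y := by
        rw [integral_add (hint y) (integrableOn_const measure_ball_lt_top.ne), cavg, mul_add]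
        congr 1
        simp only [setIntegral_const, smul_eq_mul, measureReal_def]
        field_simp

end RegFun

end Vale.Agent.P137.Centred
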