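import Vale.Agent.P137.Centred.Passage.Approx
import Vale.Agent.P137.Centred.Passage.Cmax

/-!
P137, centred passage: the maximal functions of the approximations converge locally in `L¹`.
-/

open MeasureTheory Metric Set Filter
open scoped ENNReal NNReal Topology ContDiff

noncomputable section

namespace Vale.Agent.P137.Centred

variable {d : ℕ} (D : Data d)

/-- The centred maximal function of the data as a real function. -/
def maxC (x : X d) : ℝ := (cmaxFun D.f x).toReal

lemma cmaxFun_h : cmaxFun D.h = cmaxFun D.f :=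
  cmaxFun_congr_abs (Eventually.of_forall fun y => abs_abs (D.f y))

lemma measurable_maxC : Measurable (maxC D) := (measurable_cmaxFun _).ennreal_toReal

lemma ae_finite_cmax (hfin : ∀ᵐ x, maxFun D.f x < ⊤) : ∀ᵐ x, cmaxFun D.f x < ⊤ :=
  hfin.mono fun x hx => lt_of_le_of_lt (cmaxFun_le_maxFun D.f x) hx

lemma locallyIntegrable_maxC (hfin : ∀ᵐ x, maxFun D.f x < ⊤)
    (hloc : LocallyIntegrable fun x => (maxFun D.f x).toReal) : LocallyIntegrable (maxC D) :=
  hloc.mono (measurable_maxC D).aestronglyMeasurable (hfin.mono fun x hx => by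
    rw [Real.norm_eq_abs, Real.norm_eq_abs, maxC, abs_of_nonneg ENNReal.toReal_nonneg,
      abs_of_nonneg ENNReal.toReal_nonneg]
    exact ENNReal.toReal_mono hx.ne (cmaxFun_le_maxFun _ _))

lemma tendsto_cMax_ball (hfin : ∀ᵐ x, maxFun D.f x < ⊤)
    (hloc : LocallyIntegrable fun x => (maxFun D.f x).toReal) (R : ℝ) :
    Tendsto (fun k => ∫⁻ x in ball 0 R, ‖cMax (approx D k) x - maxC D x‖ₑ) atTop (𝓝 0) := by
  set g : X d → ℝ := (ball (0 : X d) (R + 1)).indicator (maxC D) with hg
  have hgm : Measurable g := (measurable_maxC D).indicator measurableSet_ball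
  have hgi : Integrable g :=
    (((locallyIntegrable_maxC D hfin hloc).integrableOn_isCompact
      (isCompact_closedBall 0 (R + 1))).mono_set ball_subset_closedBall).integrable_indicator
      measurableSet_ball
  have hg0 : ∀ x, 0 ≤ g x := fun x =>
    indicator_nonneg (fun _ _ => ENNReal.toReal_nonneg) x
  have hcm : ∀ k, Measurable (cMax (approx D k)) := fun k => by
    obtain ⟨K, hK⟩ := (regFun_approx D k).lipschitz_cMax
    exact hK.continuous.measurable
  -- the part below
  have hlow : Tendsto (fun k => ∫⁻ x in ball 0 R, ENNReal.ofReal (g x - cMax (approx D k) x))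
      atTop (𝓝 (∫⁻ _x in ball (0 : X d) R, 0)) := by
    refine tendsto_lintegral_of_dominated_convergence (fun x => ‖g x‖ₑ)
      (fun k => ((hgm.sub (hcm k))).ennreal_ofReal) (fun k => Eventually.of_forall fun x => ?_)
      (ne_top_of_le_ne_top hgi.2.ne (setLIntegral_le_lintegral _ _)) ?_
    · simp only [Real.enorm_eq_ofReal (hg0 x)]
      exact ENNReal.ofReal_le_ofReal (by linarith [(regFun_approx D k).cMax_nonneg x])
    · filter_upwards [ae_restrict_of_ae (ae_finite_cmax D hfin),
        ae_restrict_mem measurableSet_ball] with x hx hxR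
      refine ENNReal.tendsto_nhds_zero.2 fun ε hε => ?_
      obtain ⟨η, hη, hηε⟩ : ∃ η : ℝ, 0 < η ∧ ENNReal.ofReal η ≤ ε := by
        rcases eq_or_ne ε ⊤ with rfl | h
        · exact ⟨1, one_pos, le_top⟩
        · exact ⟨ε.toReal, ENNReal.toReal_pos hε.ne' h, le_of_eq (ENNReal.ofReal_toReal h)⟩
      have hgx : g x = maxC D x := indicator_of_mem (ball_subset_ball (by linarith) hxR) _
      rcases lt_or_ge (maxC D x - η / 2) 0 with hneg | hpos
      · refine Eventually.of_forall fun k => le_trans (ENNReal.ofReal_le_ofReal ?_) hηε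
        linarith [(regFun_approx D k).cMax_nonneg x]
      have hlt : ENNReal.ofReal (maxC D x - η / 2) < cmaxFun D.h x := by
        rw [cmaxFun_h, ENNReal.ofReal_lt_iff_lt_toReal hpos hx.ne]
        simp only [maxC]
        linarith
      simp only [cmaxFun, lt_iSup_iff] at hlt
      obtain ⟨r, hr, hrlt⟩ := hlt
      have hc : (volume (ball x r))⁻¹ ≠ ⊤ :=
        ENNReal.inv_ne_top.2 (measure_ball_pos volume x hr).ne'
      have he := ENNReal.Tendsto.const_mul (a := (volume (ball x r))⁻¹) (tendsto_approx D)
        (Or.inr hc)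
      rw [mul_zero] at he
      filter_upwards [ENNReal.tendsto_nhds_zero.1 he _ (ENNReal.ofReal_pos.2 (half_pos hη))]
        with k hk
      refine le_trans (ENNReal.ofReal_le_ofReal ?_) hηε
      have h1 : (volume (ball x r))⁻¹ * ∫⁻ y in ball x r, ‖D.h y‖ₑ ≤
          ENNReal.ofReal (cMax (approx D k) x + η / 2) := by
        rw [ENNReal.ofReal_add ((regFun_approx D k).cMax_nonneg x) (half_pos hη).le,
          (regFun_approx D k).ofReal_cMax x]
        refine le_trans ?_ (add_le_add (le_iSup_of_le r (le_iSup_of_le hr le_rfl)) hk)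
        rw [← mul_add]
        refine mul_le_mul_right (le_trans ?_
          (add_le_add le_rfl (setLIntegral_le_lintegral (ball x r) _))) _
        rw [← lintegral_add_left (regFun_approx D k).1.continuous.measurable.enorm]
        refine lintegral_mono fun y => ?_
        calc ‖D.h y‖ₑ = ‖approx D k y + -(approx D k y - D.h y)‖ₑ := by congr 1; ring
          _ ≤ _ := le_trans (enorm_add_le _ _) (by rw [enorm_neg])
      have h2 := hrlt.trans_le h1
      rw [ENNReal.ofReal_lt_ofReal_iff_of_nonneg hpos] at h2
      linarith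
  rw [lintegral_zero] at hlow
  refine tendsto_of_tendsto_of_tendsto_of_le_of_le' tendsto_const_nhds
    (by simpa using (tendsto_moll_L1 hgi hgm).add hlow) (Eventually.of_forall fun k => zero_le) ?_
  filter_upwards [(tendsto_order.1 tendsto_rad).2 1 one_pos] with k hk
  have hmc := (contDiff_moll (n := 1) hgi.locallyIntegrable k).continuous
  refine le_trans (setLIntegral_mono' measurableSet_ball (g := fun x =>
    ‖moll k g x - g x‖ₑ + ENNReal.ofReal (g x - cMax (approx D k) x)) fun x hx => ?_) ?_
  · have hgx : g x = maxC D x := indicator_of_mem (ball_subset_ball (by linarith) hx) _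
    have hup : cMax (approx D k) x ≤ moll k g x := by
      have hae : ∀ᵐ y, cmaxFun D.f (x - y) < ⊤ :=
        (Measure.measurePreserving_sub_left volume x).quasiMeasurePreserving.ae (ae_finite_cmax D hfin)
      have hnn : ∀ y, 0 ≤ psi k y * g (x - y) := fun y => mul_nonneg (psi_nonneg k y) (hg0 _)
      refine (ENNReal.ofReal_le_ofReal_iff (by rw [moll_apply]; exact integral_nonneg hnn)).1 ?_
      rw [(regFun_approx D k).ofReal_cMax x, moll_apply, ofReal_integral_eq_lintegral_ofReal
        (integrable_psi_mul hgi.locallyIntegrable k x) (Eventually.of_forall hnn)]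
      refine le_trans (cmaxFun_le_moll D.measurable_h k (enorm_approx_le D k) x) ?_
      refine le_of_eq (lintegral_congr_ae ?_)
      filter_upwards [hae] with y hy
      rw [ENNReal.ofReal_mul (psi_nonneg k y), cmaxFun_h]
      by_cases hψ : psi k y = 0
      · simp [hψ]
      · congr 1
        have hxy : x - y ∈ ball (0 : X d) (R + 1) := by
          rw [mem_ball_zero_iff] at hx ⊢
          linarith [norm_sub_le x y, norm_lt_of_psi_ne_zero hψ]
        rw [hg, indicator_of_mem hxy, maxC, ENNReal.ofReal_toReal hy.ne]
    rw [← hgx]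
    rcases le_total (g x) (cMax (approx D k) x) with h | h
    · refine le_trans ?_ le_self_add
      rw [← ofReal_norm, ← ofReal_norm]
      refine ENNReal.ofReal_le_ofReal ?_
      rw [Real.norm_eq_abs, Real.norm_eq_abs, abs_of_nonneg (sub_nonneg.2 h),
        abs_of_nonneg (by linarith)]
      linarith
    · refine le_trans ?_ le_add_self
      rw [← ofReal_norm, Real.norm_eq_abs, abs_sub_comm, abs_of_nonneg (sub_nonneg.2 h)]
  · rw [lintegral_add_left (by fun_prop)]
    exact add_le_add (setLIntegral_le_lintegral _ _) le_rfl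

end Vale.Agent.P137.Centred
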