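import Vale.Agent.P137.Centred.Passage.Limit
import Vale.Agent.P137.Centred.Outer.Defs

/-!
P137, centred operator: from the main estimate for regular inputs to Sobolev functions.
-/

open MeasureTheory Metric Set Filter
open scoped ENNReal NNReal Topology ContDiff

noncomputable section

namespace Vale.Agent.P137.Centred

variable {d : ℕ}

lemma RegFun.continuous_vgrad {f : X d → ℝ} (hf : RegFun f) : Continuous (vgrad f) :=
  (InnerProductSpace.toDual ℝ (X d)).symm.continuous.comp (hf.1.continuous_fderiv one_ne_zero)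

lemma RegFun.integrable_vgrad {f : X d → ℝ} (hf : RegFun f) : Integrable (vgrad f) :=
  hf.continuous_vgrad.integrable_of_hasCompactSupport
    ((hf.2.1.fderiv ℝ).comp_left (map_zero (InnerProductSpace.toDual ℝ (X d)).symm))

/-- The main estimate on all of space. -/
lemma lintegral_fderiv_cMax_le {C : ℝ}
    (hC : ∀ f : X d → ℝ, RegFun f → ∀ (L : ℝ), 0 < L → ∀ O : Set (X d), MeasurableSet O →
      ∫⁻ x in O, ‖fderiv ℝ (cMax f) x‖ₑ ≤ ENNReal.ofReal C *
        ((ENNReal.ofReal (L ^ d))⁻¹ * (∫⁻ y, ‖vgrad f y‖ₑ) * volume O +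
          (∫⁻ y in thickening (C * L) O, ‖vgrad f y‖ₑ) +
          ((∫⁻ y, ‖vgrad f y‖ₑ) - cmass (vgrad f) (C * L))))
    {f : X d → ℝ} (hf : RegFun f) :
    ∫⁻ x, ‖fderiv ℝ (cMax f) x‖ₑ ≤
      ENNReal.ofReal C * ((volume (ball (0 : X d) 1) + 2) * ∫⁻ y, ‖vgrad f y‖ₑ) := by
  rw [← setLIntegral_univ, ← iUnion_ball_nat_succ (0 : X d), setLIntegral_iUnion_of_directed _
    (Monotone.directed_le fun a b h => ball_subset_ball (by simpa using h))]
  refine iSup_le fun n => ?_
  set L : ℝ := (n:ℝ) + 1 with hL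
  have hL0 : 0 < L := by positivity
  refine le_trans (hC f hf L hL0 (ball 0 L) measurableSet_ball) (mul_le_mul_right ?_ _)
  have hv : volume (ball (0 : X d) L) = ENNReal.ofReal (L ^ d) * volume (ball (0 : X d) 1) := by
    rw [Measure.addHaar_ball_of_pos volume 0 hL0, finrank_euclideanSpace_fin]
  set V := ∫⁻ y, ‖vgrad f y‖ₑ with hV
  have h0 : ENNReal.ofReal (L ^ d) ≠ 0 := (ENNReal.ofReal_pos.2 (by positivity)).ne'
  calc (ENNReal.ofReal (L ^ d))⁻¹ * V * volume (ball (0 : X d) L) +
        (∫⁻ y in thickening (C * L) (ball 0 L), ‖vgrad f y‖ₑ) + (V - cmass (vgrad f) (C * L))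
      ≤ V * volume (ball (0 : X d) 1) + V + V := by
        refine add_le_add (add_le_add (le_of_eq ?_) (setLIntegral_le_lintegral _ _)) tsub_le_self
        rw [hv, mul_right_comm, ← mul_assoc, ENNReal.inv_mul_cancel h0 ENNReal.ofReal_ne_top,
          one_mul, mul_comm]
    _ = (volume (ball (0 : X d) 1) + 2) * V := by ring

theorem passage_at (hd : MainEst d) (hc : CmassFacts d) :
    ∃ C : ℝ, ∀ D : Data d, (∀ᵐ x, maxFun D.f x < ⊤) →
      LocallyIntegrable (fun x => (maxFun D.f x).toReal) →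
      ∃ H : Fin d → X d → ℝ, (∀ i, Integrable (H i)) ∧ IsWeakGrad (maxC D) H ∧
        ∑ i, ∫ x, |H i x| ≤ C * D.G0 := by
  classical
  obtain ⟨C, hC0, hC⟩ := hd
  set V₁ : ℝ := (volume (ball (0 : X d) 1)).toReal + 2 with hV₁
  have hV₁0 : 0 ≤ V₁ := by positivity
  refine ⟨2 * d * (C * V₁ * (2 * d * d)), fun D hfin hloc => ?_⟩
  obtain ⟨H, hHi, hHm, hH, hHA⟩ := exists_weakGrad_abs D
  set T : ℝ := ∑ i, ∫ x, |H i x| with hT
  have hT0 : 0 ≤ T := Finset.sum_nonneg fun i _ => integral_nonneg fun x => abs_nonneg _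
  set Wh : X d → ℝ≥0∞ := fun x => ∑ i, ‖H i x‖ₑ with hWh
  have hWT : ∫⁻ x, Wh x = ENNReal.ofReal T := by
    simp only [hWh]
    rw [lintegral_finsetSum _ fun i _ => (hHm i).enorm, hT,
      ENNReal.ofReal_sum_of_nonneg fun i _ => integral_nonneg fun x => abs_nonneg _]
    refine Finset.sum_congr rfl fun i _ => ?_
    rw [← ofReal_integral_norm_eq_lintegral_enorm (hHi i)]
    simp [Real.norm_eq_abs]
  set F : ℕ → X d → ℝ := approx D with hF
  have hreg : ∀ k, RegFun (F k) := regFun_approx D
  set err : ℕ → X d → ℝ≥0∞ := fun k x =>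
    ∑ i, ‖fderiv ℝ (F k) x (EuclideanSpace.single i 1) - H i x‖ₑ with herr
  have hdm : ∀ k (i : Fin d), Measurable fun x => fderiv ℝ (F k) x (EuclideanSpace.single i 1) :=
    fun k i => (((hreg k).1.continuous_fderiv one_ne_zero).clm_apply continuous_const).measurable
  have herrm : ∀ k, Measurable (err k) := fun k =>
    Finset.measurable_sum _ fun i _ => ((hdm k i).sub (hHm i)).enorm
  set E : ℕ → ℝ≥0∞ := fun k => ∫⁻ x, err k x with hE
  have hE0 : Tendsto E atTop (𝓝 0) := by
    have h := tendsto_finsetSum (Finset.univ : Finset (Fin d)) fun i _ =>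
      tendsto_approx_grad D hHi hHm hH i
    simp only [Finset.sum_const_zero] at h
    refine h.congr fun k => ?_
    simp only [hE, herr]
    exact (lintegral_finsetSum _ fun i _ =>
      (((hdm k i).sub (hHm i)).enorm : Measurable fun x =>
        ‖fderiv ℝ (F k) x (EuclideanSpace.single i 1) - H i x‖ₑ)).symm
  -- the gradients are close to `H`
  have hset : ∀ k (O : Set (X d)), ∫⁻ x in O, ‖vgrad (F k) x‖ₑ ≤ (∫⁻ x in O, Wh x) + E k := by
    intro k O
    refine le_trans ?_ (add_le_add le_rfl (setLIntegral_le_lintegral O (err k)))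
    rw [← lintegral_add_left (Finset.measurable_sum _ fun i _ => (hHm i).enorm)]
    refine lintegral_mono fun x => ?_
    rw [enorm_vgrad]
    refine le_trans (enorm_le_sum _) ?_
    simp only [err, ← Finset.sum_add_distrib]
    refine Finset.sum_le_sum fun i _ => ?_
    calc ‖fderiv ℝ (F k) x (EuclideanSpace.single i 1)‖ₑ
        = ‖H i x + (fderiv ℝ (F k) x (EuclideanSpace.single i 1) - H i x)‖ₑ := by congr 1; ring
      _ ≤ _ := enorm_add_le _ _
  have hall : ∀ k, ∫⁻ x, ‖vgrad (F k) x‖ₑ ≤ ENNReal.ofReal T + E k := fun k => by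
    simpa [setLIntegral_univ, hWT] using hset k univ
  set S : X d → ℝ≥0∞ := fun v => ∑ i, shiftDist (H i) v with hS
  have hshift : ∀ k v, ∫⁻ y, ‖vgrad (F k) (y + v) - vgrad (F k) y‖ₑ ≤ S v + (E k + E k) := by
    intro k v
    have hm1 : ∀ i : Fin d, Measurable fun y => ‖H i (y + v) - H i y‖ₑ := fun i =>
      (((hHm i).comp (measurable_add_const v)).sub (hHm i)).enorm
    calc ∫⁻ y, ‖vgrad (F k) (y + v) - vgrad (F k) y‖ₑ
        ≤ ∫⁻ y, (∑ i, ‖H i (y + v) - H i y‖ₑ) + (err k (y + v) + err k y) := by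
          refine lintegral_mono fun y => le_trans (enorm_vgrad_sub_le _ _ _) ?_
          simp only [err, ← Finset.sum_add_distrib]
          refine Finset.sum_le_sum fun i _ => ?_
          set e : X d := EuclideanSpace.single i 1
          calc ‖fderiv ℝ (F k) (y + v) e - fderiv ℝ (F k) y e‖ₑ
              = ‖(H i (y + v) - H i y) + ((fderiv ℝ (F k) (y + v) e - H i (y + v)) +
                  -(fderiv ℝ (F k) y e - H i y))‖ₑ := by congr 1; ring
            _ ≤ _ := le_trans (enorm_add_le _ _) (add_le_add le_rfl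
                (le_trans (enorm_add_le _ _) (by rw [enorm_neg])))
      _ = S v + (E k + E k) := by
          rw [lintegral_add_left (Finset.measurable_sum _ fun i _ => hm1 i),
            lintegral_finsetSum _ fun i _ => hm1 i,
            lintegral_add_left (f := fun y => err k (y + v)) ((herrm k).comp (measurable_add_const v)),
            lintegral_add_right_eq_self (err k) v]
          rfl
  -- the approximate gradients of the maximal function
  have hlip : ∀ k, ∃ K : ℝ≥0, LipschitzWith K (cMax (F k)) := fun k => (hreg k).lipschitz_cMax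
  set q : Fin d → ℕ → X d → ℝ := fun i k x =>
    lineDeriv ℝ (cMax (F k)) x (EuclideanSpace.single i 1) with hq
  have hqle : ∀ i k (O : Set (X d)),
      ∫⁻ x in O, ‖q i k x‖ₑ ≤ ∫⁻ x in O, ‖fderiv ℝ (cMax (F k)) x‖ₑ := by
    intro i k O
    obtain ⟨K, hK⟩ := hlip k
    refine lintegral_mono_ae ?_
    filter_upwards [ae_restrict_of_ae (hK.ae_differentiableAt (μ := volume))] with x hx
    simp only [hq, hx.lineDeriv_eq_fderiv]
    exact enorm_apply_le _ i
  have key := exists_weakGrad_of_limit (F := maxC D) q (A := C * V₁ * T) ?_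
    (mul_nonneg (mul_nonneg hC0.le hV₁0) hT0) ?_ ?_ ?_
  · obtain ⟨Hc, h1, -, h2, h3⟩ := key
    refine ⟨Hc, h1, h2, le_trans h3 ?_⟩
    have : C * V₁ * T ≤ C * V₁ * (2 * d * (d * D.G0)) :=
      mul_le_mul_of_nonneg_left hHA (mul_nonneg hC0.le hV₁0)
    have := mul_le_mul_of_nonneg_left this (by positivity : (0:ℝ) ≤ 2 * d)
    linarith
  · intro i k
    obtain ⟨K, hK⟩ := hlip k
    exact measurable_lineDeriv hK.continuous
  · intro i ε hε
    set c : ℝ≥0∞ := ENNReal.ofReal C * (volume (ball (0 : X d) 1) + 2) with hcdef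
    have hctop : c ≠ ⊤ := ENNReal.mul_ne_top ENNReal.ofReal_ne_top
      (ENNReal.add_ne_top.2 ⟨measure_ball_lt_top.ne, ENNReal.ofNat_ne_top⟩)
    have hce : c = ENNReal.ofReal (C * V₁) := by
      rw [hcdef, ENNReal.ofReal_mul hC0.le, hV₁, ENNReal.ofReal_add ENNReal.toReal_nonneg two_pos.le,
        ENNReal.ofReal_toReal measure_ball_lt_top.ne, ENNReal.ofReal_ofNat]
    have hlim : Tendsto (fun k => c * E k) atTop (𝓝 0) := by
      simpa using ENNReal.Tendsto.const_mul hE0 (Or.inr hctop)
    filter_upwards [ENNReal.tendsto_nhds_zero.1 hlim _ (ENNReal.ofReal_pos.2 hε)] with k hk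
    rw [← setLIntegral_univ]
    refine le_trans (hqle i k univ) ?_
    rw [setLIntegral_univ]
    refine le_trans (lintegral_fderiv_cMax_le hC (hreg k)) ?_
    rw [← mul_assoc, ← hcdef]
    refine le_trans (mul_le_mul_right (hall k) _) ?_
    rw [mul_add, ENNReal.ofReal_add (mul_nonneg (mul_nonneg hC0.le hV₁0) hT0) hε.le]
    refine add_le_add (le_of_eq ?_) hk
    rw [hce, ENNReal.ofReal_mul (p := C * V₁) (mul_nonneg hC0.le hV₁0)]
  · intro i K hK hK0 ε hε
    set ε' : ℝ≥0∞ := ENNReal.ofReal (ε / (6 * C)) with hε'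
    have hε'0 : 0 < ε' := ENNReal.ofReal_pos.2 (by positivity)
    have hfinK : ∀ r, volume (thickening r K) ≠ ⊤ := fun r =>
      ((hK.isBounded.thickening).measure_lt_top).ne
    have hv0 : Tendsto (fun r => volume (thickening r K)) (𝓝[>] 0) (𝓝 0) := by
      simpa [hK0] using tendsto_measure_thickening_of_isClosed ⟨1, one_pos, hfinK 1⟩ hK.isClosed
    have hW0 := tendsto_setLIntegral_zero (f := Wh) (by rw [hWT]; exact ENNReal.ofReal_ne_top)
      (s := fun r : ℝ => thickening r K) hv0
    obtain ⟨η₀, hη₀W, hη₀⟩ := ((hW0.eventually (ge_mem_nhds hε'0)).and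
      (self_mem_nhdsWithin : ∀ᶠ r in 𝓝[>] (0:ℝ), 0 < r)).exists
    have hS0 : Tendsto S (𝓝 0) (𝓝 0) := by
      simpa using tendsto_finsetSum (Finset.univ : Finset (Fin d)) fun i _ =>
        tendsto_shiftDist (hHi i)
    obtain ⟨δ, hδ, hδS⟩ := Metric.eventually_nhds_iff.1 (ENNReal.tendsto_nhds_zero.1 hS0 ε' hε'0)
    set L : ℝ := min (δ / (2 * (((d:ℝ) + 1) * C))) (η₀ / (2 * C)) with hLdef
    have hL0 : 0 < L := lt_min (by positivity) (by positivity)
    have hLη : C * L ≤ η₀ / 2 := by
      have := mul_le_mul_of_nonneg_left (min_le_right (δ / (2 * (((d:ℝ) + 1) * C))) (η₀ / (2 * C)))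
        hC0.le
      rw [← hLdef] at this
      refine this.trans (le_of_eq ?_)
      field_simp
    have hLδ : ((d:ℝ) + 1) * (C * L) < δ := by
      have := mul_le_mul_of_nonneg_left (min_le_left (δ / (2 * (((d:ℝ) + 1) * C))) (η₀ / (2 * C)))
        (by positivity : (0:ℝ) ≤ ((d:ℝ) + 1) * C)
      rw [← hLdef] at this
      have e : ((d:ℝ) + 1) * C * (δ / (2 * (((d:ℝ) + 1) * C))) = δ / 2 := by field_simp
      rw [e] at this
      rw [← mul_assoc]
      linarith
    set c : ℝ≥0∞ := (ENNReal.ofReal (L ^ d))⁻¹ * (ENNReal.ofReal T + 1) with hcdef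
    have hctop : c ≠ ⊤ := ENNReal.mul_ne_top
      (ENNReal.inv_ne_top.2 (ENNReal.ofReal_pos.2 (by positivity)).ne')
      (ENNReal.add_ne_top.2 ⟨ENNReal.ofReal_ne_top, ENNReal.one_ne_top⟩)
    have hcv : Tendsto (fun r => c * volume (thickening r K)) (𝓝[>] 0) (𝓝 0) := by
      simpa using ENNReal.Tendsto.const_mul hv0 (Or.inr hctop)
    obtain ⟨η, hηc, hη, hηle⟩ := ((hcv.eventually (ge_mem_nhds hε'0)).and
      (Ioc_mem_nhdsGT (half_pos hη₀))).exists
    refine ⟨thickening η K, isOpen_thickening, self_subset_thickening hη K, ?_⟩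
    filter_upwards [ENNReal.tendsto_nhds_zero.1 hE0 ε' hε'0,
      ENNReal.tendsto_nhds_zero.1 hE0 1 one_pos] with k hk hk1
    refine le_trans (hqle i k _) (le_trans
      (hC (F k) (hreg k) L hL0 _ isOpen_thickening.measurableSet) ?_)
    have hV : ∫⁻ y, ‖vgrad (F k) y‖ₑ ≤ ENNReal.ofReal T + 1 :=
      (hall k).trans (add_le_add le_rfl hk1)
    have hloss : (∫⁻ y, ‖vgrad (F k) y‖ₑ) - cmass (vgrad (F k)) (C * L) ≤ ε' + (ε' + ε') := by
      rw [tsub_le_iff_left]
      refine hc.2 _ (hreg k).integrable_vgrad _ (mul_pos hC0 hL0) _ fun v hv => ?_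
      refine le_trans (hshift k v) (add_le_add (hδS ?_) (add_le_add hk hk))
      rw [dist_zero_right]
      exact lt_of_le_of_lt hv hLδ
    calc ENNReal.ofReal C *
          ((ENNReal.ofReal (L ^ d))⁻¹ * (∫⁻ y, ‖vgrad (F k) y‖ₑ) * volume (thickening η K) +
            (∫⁻ y in thickening (C * L) (thickening η K), ‖vgrad (F k) y‖ₑ) +
            ((∫⁻ y, ‖vgrad (F k) y‖ₑ) - cmass (vgrad (F k)) (C * L)))
        ≤ ENNReal.ofReal C * (ε' + (ε' + ε') + (ε' + (ε' + ε'))) := by
          gcongr
          · exact le_trans (mul_le_mul_left (mul_le_mul_right hV _) _) hηc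
          · refine le_trans (hset k _) (add_le_add (le_trans (lintegral_mono_set ?_) hη₀W) hk)
            exact (thickening_thickening_subset _ _ _).trans (thickening_mono (by linarith) _)
      _ = ENNReal.ofReal ε := by
          rw [show ε' + (ε' + ε') + (ε' + (ε' + ε')) = ((6:ℕ) : ℝ≥0∞) * ε' by push_cast; ring,
            hε', ← ENNReal.ofReal_natCast, ← ENNReal.ofReal_mul (by norm_num),
            ← ENNReal.ofReal_mul hC0.le]
          congr 1
          push_cast
          field_simp
  · intro i φ hφ hφc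
    have hφ1 : ContDiff ℝ 1 φ := hφ.of_le (by norm_num)
    obtain ⟨Kφ, hKφ⟩ := hφ1.lipschitzWith_of_hasCompactSupport hφc one_ne_zero
    set e : X d := EuclideanSpace.single i 1 with he
    obtain ⟨R, hR0, hR⟩ := hφc.isCompact.isBounded.subset_ball_lt 0 (0 : X d)
    have hψc : Continuous fun x => fderiv ℝ φ x e :=
      (hφ1.continuous_fderiv one_ne_zero).clm_apply continuous_const
    have hψs : HasCompactSupport fun x => fderiv ℝ φ x e := hφc.fderiv_apply ℝ _
    have hzero : ∀ x, x ∉ ball (0 : X d) R → fderiv ℝ φ x e = 0 := by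
      intro x hx
      have : fderiv ℝ φ x = 0 := fderiv_of_notMem_tsupport ℝ (fun h => hx (hR h))
      simp [this]
    set us : ℕ → X d → ℝ := fun k => (ball (0 : X d) R).indicator (cMax (F k)) with hus
    set u : X d → ℝ := (ball (0 : X d) R).indicator (maxC D) with hu
    have hui : Integrable u :=
      (((locallyIntegrable_maxC D hfin hloc).integrableOn_isCompact
        (isCompact_closedBall 0 R)).mono_set ball_subset_closedBall).integrable_indicator
        measurableSet_ball
    have husi : ∀ k, Integrable (us k) := fun k => by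
      obtain ⟨K, hK⟩ := hlip k
      exact ((hK.continuous.continuousOn.integrableOn_compact (isCompact_closedBall (0 : X d) R)
        ).mono_set ball_subset_closedBall).integrable_indicator measurableSet_ball
    have hlim : Tendsto (fun k => ∫⁻ x, ‖us k x - u x‖ₑ) atTop (𝓝 0) := by
      refine (tendsto_cMax_ball D hfin hloc R).congr fun k => ?_
      rw [← lintegral_indicator measurableSet_ball]
      refine lintegral_congr fun x => ?_
      by_cases hx : x ∈ ball (0 : X d) R
      · simp [hus, hu, hF, indicator_of_mem hx]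
      · simp [hus, hu, indicator_of_notMem hx]
    have h := tendsto_integral_mul_of_L1 hui husi hlim hψc hψs
    have e0 : ∀ a : X d → ℝ, ∫ x, (ball (0 : X d) R).indicator a x * fderiv ℝ φ x e =
        ∫ x, a x * fderiv ℝ φ x e := by
      intro a
      refine integral_congr_ae (Eventually.of_forall fun x => ?_)
      by_cases hx : x ∈ ball (0 : X d) R
      · simp [indicator_of_mem hx]
      · simp [indicator_of_notMem hx, hzero x hx]
    simp only [hus, hu, e0] at h
    refine h.congr fun k => ?_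
    obtain ⟨K, hK⟩ := hlip k
    have h2 := hK.integral_lineDeriv_mul_eq (μ := volume) hKφ hφc e
    have e1 : ∫ x, φ x * q i k x = ∫ x, lineDeriv ℝ (cMax (F k)) x e * φ x :=
      integral_congr_ae (Eventually.of_forall fun x => mul_comm _ _)
    have e2 : ∫ x, lineDeriv ℝ φ x (-e) * cMax (F k) x =
        -∫ x, cMax (F k) x * fderiv ℝ φ x e := by
      rw [← integral_neg]
      refine integral_congr_ae (Eventually.of_forall fun x => ?_)
      simp only [(hφ1.differentiable one_ne_zero x).lineDeriv_eq_fderiv, map_neg]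
      ring
    rw [e1, h2, e2, neg_neg]

/-- **Passage.** The main estimate and the uncentred theorem give endpoint Sobolev regularity of
the centred maximal operator. -/
theorem passage (hU : MaximalW11) (hM : ∀ d : ℕ, 1 ≤ d → MainEst d)
    (hc : ∀ d : ℕ, 1 ≤ d → CmassFacts d) : CentredW11 := by
  intro d hd
  obtain ⟨CU, hCU⟩ := hU d hd
  obtain ⟨C, hC⟩ := passage_at (hM d hd) (hc d hd)
  refine ⟨C, fun f G hf hG hw => ?_⟩
  obtain ⟨hfin, hloc, -⟩ := hCU f G hf hG hw
  set D : Data d :=
    { f := hf.1.mk f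
      G := fun i => (hG i).1.mk (G i)
      hf := hf.congr hf.1.ae_eq_mk
      hfm := hf.1.stronglyMeasurable_mk.measurable
      hG := fun i => (hG i).congr (hG i).1.ae_eq_mk
      hGm := fun i => (hG i).1.stronglyMeasurable_mk.measurable
      hweak := fun i φ h1 h2 => by
        have ea : ∫ x, hf.1.mk f x * fderiv ℝ φ x (EuclideanSpace.single i 1) =
            ∫ x, f x * fderiv ℝ φ x (EuclideanSpace.single i 1) := by
          refine integral_congr_ae ?_
          filter_upwards [hf.1.ae_eq_mk] with x hx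
          rw [hx]
        have eb : ∫ x, (hG i).1.mk (G i) x * φ x = ∫ x, G i x * φ x := by
          refine integral_congr_ae ?_
          filter_upwards [(hG i).1.ae_eq_mk] with x hx
          rw [hx]
        rw [ea, eb, hw i φ h1 h2] } with hD
  have hae : ∀ᵐ y, |f y| = |D.f y| := by
    filter_upwards [hf.1.ae_eq_mk] with y hy
    simp only [hD]
    rw [← hy]
  have hmax : maxFun f = maxFun D.f := by
    funext x
    refine iSup_congr fun c => iSup_congr fun r => iSup_congr fun _ => ?_
    congr 1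
    refine lintegral_congr_ae (ae_restrict_of_ae ?_)
    filter_upwards [hf.1.ae_eq_mk] with y hy
    simp only [hD]
    rw [← hy]
  have hG0 : D.G0 = ∑ i, ∫ x, |G i x| := by
    refine Finset.sum_congr rfl fun i _ => integral_congr_ae ?_
    filter_upwards [(hG i).1.ae_eq_mk] with x hx
    simp only [hD]
    rw [← hx]
  rw [hmax] at hfin hloc
  rw [cmaxFun_congr_abs hae, ← hG0]
  obtain ⟨Hc, h1, h2, h3⟩ := hC D hfin hloc
  exact ⟨ae_finite_cmax D hfin, locallyIntegrable_maxC D hfin hloc, Hc, h1, h2, h3⟩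

end Vale.Agent.P137.Centred
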