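import Vale.Agent.P137.Passage

/-!
P137, centred passage: translations and mollifications in `L¹`, and weak gradients as limits.
-/

open MeasureTheory Metric Set Filter
open scoped ENNReal Topology ContDiff CompactlySupported

noncomputable section

namespace Vale.Agent.P137.Centred

variable {d : ℕ}

/-- The distance in `L¹` between a function and its translate. -/
def shiftDist (u : X d → ℝ) (v : X d) : ℝ≥0∞ := ∫⁻ x, ‖u (x + v) - u x‖ₑ

lemma tendsto_shiftDist {u : X d → ℝ} (hu : Integrable u) :
    Tendsto (shiftDist u) (𝓝 0) (𝓝 0) := by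
  refine ENNReal.tendsto_nhds_zero.2 fun ε hε => ?_
  set ε' : ℝ≥0∞ := ε / 3 with hε'
  have hε'0 : ε' ≠ 0 := (ENNReal.div_pos hε.ne' (by norm_num)).ne'
  obtain ⟨g, hgc, hgu, hg, hgi⟩ := hu.exists_hasCompactSupport_lintegral_sub_le hε'0
  obtain ⟨M, hM⟩ := hgc.exists_bound_of_continuous hg
  obtain ⟨R, hR⟩ := hgc.isCompact.isBounded.subset_closedBall (0 : X d)
  set S := closedBall (0 : X d) (R + 1) with hS
  have hlim : Tendsto (fun v : X d => ∫⁻ x, ‖g (x + v) - g x‖ₑ) (𝓝 0) (𝓝 (∫⁻ _x : X d, 0)) := by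
    refine tendsto_lintegral_filter_of_dominated_convergence
      (fun x => S.indicator (fun _ => ENNReal.ofReal (2 * M)) x) ?_ ?_ ?_ ?_
    · exact Eventually.of_forall fun v =>
        ((hg.comp (continuous_add_const v)).sub hg).measurable.enorm
    · filter_upwards [ball_mem_nhds (0 : X d) one_pos] with v hv
      refine Eventually.of_forall fun x => ?_
      by_cases hx : x ∈ S
      · rw [indicator_of_mem hx, ← ofReal_norm]
        exact ENNReal.ofReal_le_ofReal (le_trans (norm_sub_le _ _) (by linarith [hM (x + v), hM x]))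
      · have hx' : R + 1 < ‖x‖ := by simpa [hS, mem_closedBall_zero_iff, not_le] using hx
        have hv' : ‖v‖ < 1 := mem_ball_zero_iff.1 hv
        have h0 : g x = 0 := image_eq_zero_of_notMem_tsupport fun h => by
          have := hR h; rw [mem_closedBall_zero_iff] at this; linarith
        have h0' : g (x + v) = 0 := image_eq_zero_of_notMem_tsupport fun h => by
          have := hR h
          rw [mem_closedBall_zero_iff] at this
          have h2 := norm_sub_norm_le x (-v)
          rw [norm_neg, sub_neg_eq_add] at h2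
          linarith
        simp [h0, h0']
    · rw [lintegral_indicator measurableSet_closedBall, setLIntegral_const]
      exact ENNReal.mul_ne_top ENNReal.ofReal_ne_top measure_closedBall_lt_top.ne
    · refine Eventually.of_forall fun x => ?_
      have h : Tendsto (fun v : X d => g (x + v) - g x) (𝓝 0) (𝓝 0) := by
        have hc : Continuous fun v : X d => g (x + v) - g x :=
          (hg.comp (continuous_const.add continuous_id)).sub continuous_const
        simpa using hc.tendsto 0
      simpa [Function.comp_def] using (continuous_enorm.tendsto _).comp h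
  rw [lintegral_zero] at hlim
  filter_upwards [ENNReal.tendsto_nhds_zero.1 hlim ε' (pos_iff_ne_zero.2 hε'0)] with v hv
  have hgm := hg.measurable
  have hd : AEMeasurable (fun x => ‖u x - g x‖ₑ) := (hu.1.sub hgi.1).aemeasurable.enorm
  have hd' : AEMeasurable (fun x => ‖u (x + v) - g (x + v)‖ₑ) :=
    hd.comp_quasiMeasurePreserving (measurePreserving_add_right volume v).quasiMeasurePreserving
  calc shiftDist u v
      ≤ ∫⁻ x, ‖u (x + v) - g (x + v)‖ₑ + (‖g (x + v) - g x‖ₑ + ‖u x - g x‖ₑ) := by
        refine lintegral_mono fun x => ?_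
        calc ‖u (x + v) - u x‖ₑ
            = ‖(u (x + v) - g (x + v)) + ((g (x + v) - g x) + -(u x - g x))‖ₑ := by congr 1; ring
          _ ≤ _ := le_trans (enorm_add_le _ _) (add_le_add le_rfl
              (le_trans (enorm_add_le _ _) (by rw [enorm_neg])))
    _ = (∫⁻ x, ‖u x - g x‖ₑ) + ((∫⁻ x, ‖g (x + v) - g x‖ₑ) + ∫⁻ x, ‖u x - g x‖ₑ) := by
        rw [lintegral_add_left' hd', lintegral_add_left (by fun_prop),
          lintegral_add_right_eq_self (fun x => ‖u x - g x‖ₑ) v]
    _ ≤ ε' + (ε' + ε') := add_le_add hgu (add_le_add hv hgu)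
    _ = ε := by rw [hε', ← add_assoc, ENNReal.add_thirds]

lemma tendsto_moll_L1 {u : X d → ℝ} (hu : Integrable u) (hum : Measurable u) :
    Tendsto (fun k => ∫⁻ x, ‖moll k u x - u x‖ₑ) atTop (𝓝 0) := by
  refine ENNReal.tendsto_nhds_zero.2 fun ε hε => ?_
  obtain ⟨δ, hδ, hball⟩ := Metric.eventually_nhds_iff.1
    (ENNReal.tendsto_nhds_zero.1 (tendsto_shiftDist hu) ε hε)
  filter_upwards [(tendsto_order.1 tendsto_rad).2 δ hδ] with k hk
  have h1 : ∀ x, ‖moll k u x - u x‖ₑ ≤
      ∫⁻ y, ENNReal.ofReal (psi k y) * ‖u (x + -y) - u x‖ₑ := by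
    intro x
    have e : moll k u x - u x = ∫ y, psi k y * (u (x + -y) - u x) := by
      simp only [mul_sub, ← sub_eq_add_neg]
      have hi : Integrable fun y : X d => psi k y * u x :=
        (bump k).integrable_normed.mul_const _
      rw [integral_sub (integrable_psi_mul hu.locallyIntegrable k x) hi,
        integral_mul_const, moll_apply]
      simp [psi, (bump k).integral_normed]
    rw [e]
    refine le_trans (enorm_integral_le_lintegral_enorm _) (le_of_eq (lintegral_congr fun y => ?_))
    rw [enorm_mul, Real.enorm_eq_ofReal (psi_nonneg k y)]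
  refine le_trans (lintegral_mono h1) ?_
  rw [lintegral_lintegral_swap]
  swap
  · exact Measurable.aemeasurable
      (((psi_continuous k).measurable.ennreal_ofReal.comp measurable_snd).mul
        (((hum.comp (measurable_fst.add measurable_snd.neg)).sub
          (hum.comp measurable_fst)).enorm))
  calc ∫⁻ y, ∫⁻ x, ENNReal.ofReal (psi k y) * ‖u (x + -y) - u x‖ₑ
      ≤ ∫⁻ y, ENNReal.ofReal (psi k y) * ε := by
        refine lintegral_mono fun y => ?_
        rw [lintegral_const_mul _ (by fun_prop)]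
        by_cases hy : psi k y = 0
        · simp [hy]
        · refine mul_le_mul_right (hball ?_) _
          rw [dist_zero_right, norm_neg]
          exact lt_trans (norm_lt_of_psi_ne_zero hy) hk
    _ = ε := by
        rw [lintegral_mul_const _ (psi_continuous k).measurable.ennreal_ofReal, lintegral_psi,
          one_mul]

/-- A weak gradient from approximate gradients that are bounded in `L¹` and do not charge null
compact sets. -/
theorem exists_weakGrad_of_limit {F : X d → ℝ} (q : Fin d → ℕ → X d → ℝ)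
    (hqm : ∀ i m, Measurable (q i m)) {A : ℝ} (hA0 : 0 ≤ A)
    (hA : ∀ i, ∀ ε : ℝ, 0 < ε → ∀ᶠ m in atTop, ∫⁻ x, ‖q i m x‖ₑ ≤ ENNReal.ofReal (A + ε))
    (hnull : ∀ i, ∀ K : Set (X d), IsCompact K → volume K = 0 → ∀ ε : ℝ, 0 < ε →
      ∃ O, IsOpen O ∧ K ⊆ O ∧ ∀ᶠ m in atTop, ∫⁻ x in O, ‖q i m x‖ₑ ≤ ENNReal.ofReal ε)
    (hlim : ∀ i (φ : X d → ℝ), ContDiff ℝ ∞ φ → HasCompactSupport φ →
      Tendsto (fun m => -∫ x, φ x * q i m x) atTop
        (𝓝 (∫ x, F x * fderiv ℝ φ x (EuclideanSpace.single i 1)))) :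
    ∃ H : Fin d → X d → ℝ, (∀ i, Integrable (H i)) ∧ (∀ i, Measurable (H i)) ∧ IsWeakGrad F H ∧
      ∑ i, ∫ x, |H i x| ≤ 2 * d * A := by
  classical
  set 𝒰 : Ultrafilter ℕ := Ultrafilter.of atTop with hU
  have h𝒰 : (↑𝒰 : Filter ℕ) ≤ atTop := Ultrafilter.of_le _
  have main : ∀ i (ε : ℝ), 0 < ε → ∃ w : X d → ℝ, Integrable w ∧
      ∫ x, |w x| ≤ 2 * (A + ε) ∧ ∀ φ : X d → ℝ, ContDiff ℝ ∞ φ → HasCompactSupport φ →
        ∫ x, F x * fderiv ℝ φ x (EuclideanSpace.single i 1) = -∫ x, w x * φ x := by
    intro i ε hε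
    set r : ℕ → X d → ℝ := fun m =>
      if ∫⁻ x, ‖q i m x‖ₑ ≤ ENNReal.ofReal (A + ε) then q i m else 0 with hr
    have hrb : ∀ m, Integrable (r m) ∧ ∫ x, |r m x| ≤ A + ε := by
      intro m
      simp only [hr]
      split_ifs with h
      · have hi : Integrable (q i m) := ⟨(hqm i m).aestronglyMeasurable,
          hasFiniteIntegral_iff_enorm.2 (lt_of_le_of_lt h ENNReal.ofReal_lt_top)⟩
        refine ⟨hi, (ENNReal.ofReal_le_ofReal_iff (by linarith)).1 (le_trans (le_of_eq ?_) h)⟩
        rw [← ofReal_integral_norm_eq_lintegral_enorm hi]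
        simp [Real.norm_eq_abs]
      · exact ⟨integrable_zero _ _ _, by simp; linarith⟩
    have hrev : ∀ᶠ m in atTop, r m = q i m := (hA i ε hε).mono fun m hm => if_pos hm
    have hrm : ∀ m, Measurable (r m) := fun m => by
      simp only [hr]; split_ifs
      · exact hqm i m
      · exact measurable_const
    have hdens : ∀ σ : ℝ, |σ| = 1 → ∃ w : X d → ℝ, Integrable w ∧ (∀ x, 0 ≤ w x) ∧
        ∫ x, w x ≤ A + ε ∧ ∀ ψ : C_c(X d, ℝ), Tendsto
          (fun m => ∫ x, ψ x * max (σ * r m x) 0) (↑𝒰 : Filter ℕ) (𝓝 (∫ x, ψ x * w x)) := by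
      intro σ hσ
      have hle : ∀ m x, max (σ * r m x) 0 ≤ |r m x| := fun m x =>
        max_le (le_trans (le_abs_self _) (by rw [abs_mul, hσ, one_mul])) (abs_nonneg _)
      have hi : ∀ m, Integrable fun x => max (σ * r m x) 0 := fun m =>
        ((hrb m).1.const_mul σ).pos_part
      refine exists_density _ (fun m x => le_max_right _ _) hi (by linarith) (fun m => ?_)
        (fun K hK hK0 η hη => ?_) 𝒰 h𝒰
      · exact le_trans (integral_mono (hi m) (hrb m).1.abs (hle m)) (hrb m).2
      · obtain ⟨O, hO, hKO, hev⟩ := hnull i K hK hK0 η hη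
        refine ⟨O, hO, hKO, (hev.and hrev).mono fun m hm => le_trans (lintegral_mono fun x => ?_) hm.1⟩
        rw [← ofReal_norm, Real.norm_eq_abs, ← hm.2]
        exact ENNReal.ofReal_le_ofReal (hle m x)
    obtain ⟨wp, hwpi, hwp0, hwpA, hwp⟩ := hdens 1 abs_one
    obtain ⟨wn, hwni, hwn0, hwnA, hwn⟩ := hdens (-1) (by norm_num)
    refine ⟨fun x => wp x - wn x, hwpi.sub hwni, ?_, fun φ hφ hφc => ?_⟩
    · calc ∫ x, |wp x - wn x| ≤ ∫ x, (wp x + wn x) :=
            integral_mono (hwpi.sub hwni).abs (hwpi.add hwni) fun x => by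
              rw [abs_le]; constructor <;> linarith [hwp0 x, hwn0 x]
        _ = (∫ x, wp x) + ∫ x, wn x := integral_add hwpi hwni
        _ ≤ 2 * (A + ε) := by linarith
    · set ψ : C_c(X d, ℝ) := ⟨⟨φ, hφ.continuous⟩, hφc⟩ with hψ
      obtain ⟨B, hB⟩ := hφc.exists_bound_of_continuous hφ.continuous
      have hbd : ∀ {u : X d → ℝ}, Integrable u → Integrable fun x => φ x * u x := fun hu =>
        hu.bdd_mul hφ.continuous.aestronglyMeasurable (Eventually.of_forall hB)
      have h2 := (((hwp ψ).sub (hwn ψ)).neg).congr' (f₂ := fun m => -∫ x, φ x * q i m x) (by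
        filter_upwards [h𝒰 hrev] with m hm
        simp only [hψ, CompactlySupportedContinuousMap.coe_mk, ContinuousMap.coe_mk]
        rw [← integral_sub (hbd ((hrb m).1.const_mul 1).pos_part)
          (hbd ((hrb m).1.const_mul (-1)).pos_part), ← hm]
        congr 1
        refine integral_congr_ae (Eventually.of_forall fun x => ?_)
        simp only
        rcases le_total 0 (r m x) with h | h
        · rw [max_eq_left (by linarith), max_eq_right (by linarith)]; ring
        · rw [max_eq_right (by linarith), max_eq_left (by linarith)]; ring)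
      rw [tendsto_nhds_unique ((hlim i φ hφ hφc).mono_left h𝒰) h2]
      simp only [hψ, CompactlySupportedContinuousMap.coe_mk, ContinuousMap.coe_mk]
      rw [← integral_sub (hbd hwpi) (hbd hwni)]
      congr 1
      exact integral_congr_ae (Eventually.of_forall fun x => by simp only; ring)
  choose w hwi hwA hw using fun i => main i 1 one_pos
  refine ⟨fun i => (hwi i).1.mk (w i), fun i => (hwi i).congr (hwi i).1.ae_eq_mk,
    fun i => (hwi i).1.stronglyMeasurable_mk.measurable, fun i φ hφ hφc => ?_, ?_⟩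
  · rw [hw i φ hφ hφc]
    congr 1
    refine integral_congr_ae ?_
    filter_upwards [(hwi i).1.ae_eq_mk] with x hx
    rw [hx]
  · refine le_trans (Finset.sum_le_sum (g := fun _ => 2 * A) fun i _ => ?_) (le_of_eq (by simp; ring))
    refine le_of_forall_pos_le_add fun η hη => ?_
    obtain ⟨v, hvi, hvA, hv⟩ := main i (η / 2) (half_pos hη)
    have hae : ∀ᵐ x, w i x = v x :=
      ae_eq_of_integral_contDiff_smul_eq (hwi i).locallyIntegrable hvi.locallyIntegrable
        fun g hg hgc => by
          have h := (hw i g hg hgc).symm.trans (hv g hg hgc)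
          rw [neg_inj] at h
          simpa [mul_comm] using h
    calc ∫ x, |(hwi i).1.mk (w i) x| = ∫ x, |v x| := by
          refine integral_congr_ae ?_
          filter_upwards [(hwi i).1.ae_eq_mk, hae] with x hx hx'
          rw [← hx, hx']
      _ ≤ _ := by linarith

end Vale.Agent.P137.Centred
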